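import Vale.Agent.P181.Slice.Ineq

/-!
Foulkes' inequalities for partitions of length at most three with small third part.
-/

namespace Vale.Agent.Results.P181.ThirdRowSlices

open Vale.Agent.P181.Slice

theorem result (a b l1 l2 l3 : ℕ) (ha : 1 ≤ a) (hab : a ≤ b) (h32 : l3 ≤ l2) (h21 : l2 ≤ l1)
    (h : l1 + l2 + l3 = a * b) :
    (l3 ≤ 1 → mult a b l1 l2 l3 = mult b a l1 l2 l3) ∧
    (l3 = 2 → a ∣ b ∨ a ∣ b - 1 → mult a b l1 l2 l3 ≤ mult b a l1 l2 l3) := by
  refine ⟨fun h3 => ?_, fun h3 hd => ?_⟩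
  · rw [mult_eq a b l1 l2 l3 h (by omega), mult_eq b a l1 l2 l3 (by rw [h, mul_comm]) (by omega)]
    interval_cases l3
    · simp [layer_zero_comm (show 0 < a by omega) (show 0 < b by omega)]
    · simp [layer_zero_comm (show 0 < a by omega) (show 0 < b by omega),
        layer_one_comm (show 0 < a by omega) (show 0 < b by omega)]
  · subst h3
    exact slice_le ha hab hd h21 h

end Vale.Agent.Results.P181.ThirdRowSlices
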